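import Vale.Agent.P024.H409.Dens5
import Vale.Agent.P024.ALL.Spec

/-!
P024, all number fields, block (C): prime numbers modulo which finitely many given numbers are not
powers.
-/

namespace Vale.Agent.P024.H116

open scoped NumberField
open IsDedekindDomain NumberField

/-- A rational number that becomes an `s`-th power in an abelian field containing the `s`-th roots
of unity is an `s`-th power. -/
theorem not_pow (K : Type*) [Field K] [NumberField K] [IsAbelianGalois ℚ K] {s : ℕ} (hs : s.Prime)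
    (hs2 : s ≠ 2) {ζ : K} (hζ : IsPrimitiveRoot ζ s) (a : ℚ) (ha : ∀ b : ℚ, b ^ s ≠ a) (b : K) :
    b ^ s ≠ algebraMap ℚ K a := by
  intro hb
  have hirr : Irreducible (Polynomial.X ^ s - Polynomial.C a : Polynomial ℚ) :=
    X_pow_sub_C_irreducible_of_prime hs ha
  have hmon : (Polynomial.X ^ s - Polynomial.C a : Polynomial ℚ).Monic :=
    Polynomial.monic_X_pow_sub_C a hs.ne_zero
  have hmin : ∀ c : K, c ^ s = algebraMap ℚ K a →
      minpoly ℚ c = Polynomial.X ^ s - Polynomial.C a := by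
    intro c hc
    exact (minpoly.eq_of_irreducible_of_monic hirr (by simp [hc]) hmon).symm
  have ha0 : a ≠ 0 := fun h => ha 0 (by rw [h, zero_pow hs.ne_zero])
  have hb0 : b ≠ 0 := by
    intro h
    rw [h, zero_pow hs.ne_zero] at hb
    exact ha0 ((algebraMap ℚ K).injective (by rw [← hb, map_zero]))
  have hint : IsIntegral ℚ b := Algebra.IsIntegral.isIntegral b
  set L := IntermediateField.adjoin ℚ {b} with hL
  have hfin : Module.finrank ℚ L = s := by
    rw [hL, IntermediateField.adjoin.finrank hint, hmin b hb, Polynomial.natDegree_X_pow_sub_C]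
  have hbL : b ∈ L := IntermediateField.mem_adjoin_simple_self ℚ b
  have habL : IsAbelianGalois ℚ L := IsAbelianGalois.tower_bot ℚ L K
  have hgalL : IsGalois ℚ L := habL.toIsGalois
  have hnorm : Normal ℚ L := hgalL.to_normal
  have hcb : (ζ * b) ^ s = algebraMap ℚ K a := by rw [mul_pow, hζ.pow_eq_one, one_mul, hb]
  have hcL : ζ * b ∈ L := by
    refine IsIntegral.mem_intermediateField_of_minpoly_splits
      (Algebra.IsIntegral.isIntegral (ζ * b)) ?_
    rw [hmin _ hcb, ← hmin b hb]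
    have h1 := hnorm.splits (⟨b, hbL⟩ : L)
    have h2 : minpoly ℚ (⟨b, hbL⟩ : L) = minpoly ℚ b :=
      (minpoly.algebraMap_eq (algebraMap L K).injective (⟨b, hbL⟩ : L)).symm
    rwa [h2] at h1
  have hζL : ζ ∈ L := by
    have h1 : ζ = ζ * b * b⁻¹ := by field_simp
    rw [h1]
    exact mul_mem hcL (inv_mem hbL)
  have hζ' : IsPrimitiveRoot (⟨ζ, hζL⟩ : L) s :=
    IsPrimitiveRoot.of_map_of_injective (f := algebraMap L K) hζ (algebraMap L K).injective
  have h1 : (minpoly ℚ (⟨ζ, hζL⟩ : L)).natDegree ∣ Module.finrank ℚ L :=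
    minpoly.degree_dvd (Algebra.IsIntegral.isIntegral _)
  rw [← Polynomial.cyclotomic_eq_minpoly_rat hζ' hs.pos, Polynomial.natDegree_cyclotomic,
    Nat.totient_prime hs, hfin] at h1
  have h2 : s - 1 ∣ 1 := by
    have h3 := Nat.dvd_sub h1 (dvd_refl (s - 1))
    have h4 := hs.two_le
    rwa [show s - (s - 1) = 1 by omega] at h3
  have h5 := Nat.dvd_one.1 h2
  omega

/-- (C) -/
theorem propC : ALL.PropC := by
  classical
  intro N hN n r f r₂ hr hr₂ hne hf
  obtain ⟨s, hsge, hs⟩ := Nat.exists_infinite_primes (n + 3 + ∑ i, f i)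
  have hsf : ∀ i, f i < s := fun i => by
    have := Finset.single_le_sum (f := f) (fun _ _ => Nat.zero_le _) (Finset.mem_univ i)
    omega
  have hs2 : s ≠ 2 := by omega
  refine ⟨fun _ => s, fun _ => hs, ?_⟩
  intro m B hB
  have hN0 : N * s ≠ 0 := Nat.mul_ne_zero hN.ne' hs.ne_zero
  have hNe : NeZero (N * s) := ⟨hN0⟩
  let K := CyclotomicField (N * s) ℚ
  have hcyc : IsCyclotomicExtension {N * s} ℚ K := CyclotomicField.isCyclotomicExtension (N * s) ℚ
  have hfd : FiniteDimensional ℚ K := IsCyclotomicExtension.finiteDimensional {N * s} ℚ K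
  have hnf : NumberField K := NumberField.of_module_finite ℚ K
  have hab : IsAbelianGalois ℚ K := IsCyclotomicExtension.isAbelianGalois {N * s} ℚ K
  have hζ1 := IsCyclotomicExtension.zeta_spec (N * s) ℚ K
  have hζ2 : IsPrimitiveRoot hζ1.toInteger (N * s) := hζ1.toInteger_isPrimitiveRoot
  obtain ⟨ζ, hζO⟩ : ∃ ζ : 𝓞 K, IsPrimitiveRoot ζ s :=
    ⟨_, hζ2.pow (Nat.pos_of_ne_zero hN0) rfl⟩
  have hζ : IsPrimitiveRoot (ζ : K) s :=
    hζO.map_of_injective (FaithfulSMul.algebraMap_injective (𝓞 K) K)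
  set a : Fin n → ℕ := fun i => r i ^ f i * r₂ i ^ (m i * (s - 1)) with ha
  have ha0 : ∀ i, a i ≠ 0 := fun i =>
    Nat.mul_ne_zero (pow_ne_zero _ (hr i).ne_zero) (pow_ne_zero _ (hr₂ i).ne_zero)
  have hnp : ∀ i, ∀ b : K, b ^ s ≠ ((a i : 𝓞 K) : K) := by
    intro i b hb
    refine not_pow K hs hs2 hζ (a i : ℚ) ?_ b (by rw [hb]; simp)
    intro c hc
    have hfr : Fact (r i).Prime := ⟨hr i⟩
    have hfr₂ : Fact (r₂ i).Prime := ⟨hr₂ i⟩
    have hc0 : c ≠ 0 := by
      rintro rfl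
      rw [zero_pow hs.ne_zero] at hc
      exact ha0 i (by exact_mod_cast hc.symm)
    have h1 := congrArg (padicValRat (r i)) hc
    rw [padicValRat.pow c, padicValRat.of_nat] at h1
    have h2 : padicValNat (r i) (a i) = f i := by
      rw [ha]
      simp only
      rw [padicValNat.mul (pow_ne_zero _ (hr i).ne_zero) (pow_ne_zero _ (hr₂ i).ne_zero),
        padicValNat.prime_pow, padicValNat.pow _ _, padicValNat_primes (hne i),
        mul_zero, add_zero]
    rw [h2] at h1
    have h3 : (s : ℤ) ∣ (f i : ℤ) := ⟨_, h1.symm⟩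
    have h4 := Nat.le_of_dvd (hf i) (by exact_mod_cast h3)
    have := hsf i
    omega
  have hk := fun i => Avoid.kummer_ext K hs hζ ((a i : 𝓞 K) : K) (hnp i)
  choose M g1 g2 g3 hfin α σ hα hσ hfix using hk
  by_contra hcon
  push Not at hcon
  set Q : ℕ := N * s * (∏ i, a i) * ∏ l ∈ hB.toFinset.filter Nat.Prime, l with hQ
  have hQ0 : Q ≠ 0 := by
    refine Nat.mul_ne_zero (Nat.mul_ne_zero hN0 ?_) ?_
    · exact Finset.prod_ne_zero_iff.2 fun i _ => ha0 i
    · exact Finset.prod_ne_zero_iff.2 fun l hl => (Finset.mem_filter.1 hl).2.ne_zero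
  have hcov := one_le_sum_of_cover_aux K M (fun _ => s) (fun _ => hs.pos)
    {v : HeightOneSpectrum (𝓞 K) | (Q : 𝓞 K) ∈ v.asIdeal} (H409.finite_dvd hQ0) (by
      intro v hv hl
      have hdvd : ∀ k : ℕ, k ∣ Q → (k : 𝓞 K) ∉ v.asIdeal := by
        rintro k ⟨j, hj⟩ hk
        apply hv
        show (Q : 𝓞 K) ∈ v.asIdeal
        rw [hj]
        push_cast
        exact v.asIdeal.mul_mem_right _ hk
      have hlv : ((Ideal.absNorm v.asIdeal : ℕ) : 𝓞 K) ∈ v.asIdeal := Ideal.absNorm_mem v.asIdeal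
      set l := Ideal.absNorm v.asIdeal with hldef
      have hlB : l ∉ B := by
        intro h
        refine hdvd l ?_ hlv
        refine Dvd.dvd.mul_left ?_ _
        exact Finset.dvd_prod_of_mem _ (Finset.mem_filter.2 ⟨hB.mem_toFinset.2 h, hl⟩)
      have hNl : N * s ∣ l - 1 := by
        have h1 := H409.modEq_one_of_prim (Nat.pos_of_ne_zero hN0) hζ2 v
          (hdvd _ (Dvd.dvd.mul_right (Dvd.dvd.mul_right (dvd_refl _) _) _))
        exact (Nat.modEq_iff_dvd' hl.one_le).1 h1.symm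
      obtain ⟨i, y, hy⟩ := hcon l hl hlB ((Dvd.intro _ rfl).trans hNl)
        (fun _ => (Dvd.intro_left _ rfl).trans hNl)
      have hfl : Fact l.Prime := ⟨hl⟩
      have hav : (a i : 𝓞 K) ∉ v.asIdeal := by
        refine hdvd _ ?_
        refine Dvd.dvd.mul_right (Dvd.dvd.mul_left ?_ _) _
        exact Finset.dvd_prod_of_mem _ (Finset.mem_univ i)
      have hsv : (s : 𝓞 K) ∉ v.asIdeal :=
        hdvd _ (Dvd.dvd.mul_right (Dvd.dvd.mul_right (Dvd.intro_left _ rfl) _) _)
      refine ⟨i, Avoid.split_step K (M i) hs hζO (hfin i) (a i : 𝓞 K) (α i) (σ i) (hα i) (hσ i) v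
        hsv hav ((((r₂ i : ZMod l) ^ m i * y).val : ℕ) : 𝓞 K) ?_⟩
      set c : ℕ := ((r₂ i : ZMod l) ^ m i * y).val with hc
      have h1 : ((a i : ℕ) : ZMod l) = ((c ^ s : ℕ) : ZMod l) := by
        have h2 : (c : ZMod l) = (r₂ i : ZMod l) ^ m i * y := ZMod.natCast_zmod_val _
        rw [Nat.cast_pow, h2, ha]
        simp only
        push_cast
        rw [hy, mul_pow, ← pow_mul]
        obtain ⟨t, ht⟩ : ∃ t, s = t + 1 := ⟨s - 1, by omega⟩
        rw [ht, Nat.add_sub_cancel]
        ring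
      have h3 : (l : ℤ) ∣ ((a i : ℕ) : ℤ) - ((c ^ s : ℕ) : ℤ) := by
        rw [← ZMod.intCast_zmod_eq_zero_iff_dvd]
        push_cast
        push_cast at h1
        rw [h1, sub_self]
      obtain ⟨j, hj⟩ := h3
      have h4 : ((a i : ℕ) : 𝓞 K) - ((c : ℕ) : 𝓞 K) ^ s = (l : 𝓞 K) * (j : 𝓞 K) := by
        have := congrArg (Int.cast : ℤ → 𝓞 K) hj
        push_cast at this
        exact this
      rw [h4]
      exact v.asIdeal.mul_mem_right _ hlv)
  rw [Finset.sum_const, Finset.card_univ, Fintype.card_fin, nsmul_eq_mul] at hcov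
  have hs0 : (0 : ℝ) < s := by exact_mod_cast hs.pos
  rw [mul_one_div, le_div_iff₀ hs0, one_mul] at hcov
  have h2 : s ≤ n := by exact_mod_cast hcov
  omega

end Vale.Agent.P024.H116
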